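import Vale.Agent.P275.H490.Defs

/-!
# The growth of the hook polynomial
-/

namespace Vale.Agent.P275.H950

open scoped BigOperators Topology
open Filter Finset Vale.Agent.P275.H341 Vale.Agent.P275.H490

/-- quotients of powers tend to zero -/
theorem tendsto_pow_div (d n m : ℕ) (hd : 1 ≤ d) (h : n < m) :
    Tendsto (fun q : ℕ => ((q : ℂ) ^ d) ^ n / ((q : ℂ) ^ d) ^ m) atTop (𝓝 0) := by
  have h1 : Tendsto (fun q : ℕ => ((q : ℂ)⁻¹) ^ (d * (m - n))) atTop (𝓝 0) := by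
    have h2 := (tendsto_inv_atTop_nhds_zero_nat (𝕜 := ℂ)).pow (d * (m - n))
    rwa [zero_pow (Nat.mul_ne_zero (by omega) (by omega))] at h2
  refine h1.congr' ?_
  filter_upwards [eventually_ge_atTop 1] with q hq
  have hq0 : (q : ℂ) ≠ 0 := by
    have : q ≠ 0 := by omega
    exact_mod_cast this
  rw [← pow_mul, ← pow_mul, inv_pow, eq_div_iff (pow_ne_zero _ hq0)]
  have e : d * m = d * (m - n) + d * n := by rw [← Nat.mul_add]; congr 1; omega
  rw [e, pow_add, ← mul_assoc, inv_mul_cancel₀ (pow_ne_zero _ hq0), one_mul]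

theorem sum_c (k : ℕ) : 2 * Nat.choose k 3 = ∑ c ∈ range k, c * (c - 1) := by
  induction k with
  | zero => simp
  | succ k ih =>
    rw [sum_range_succ, ← ih, Nat.choose_succ_succ' k 2, mul_add, add_comm]
    congr 1
    have := Nat.choose_two_right k
    rw [Nat.choose_two_right, Nat.mul_div_cancel' (Nat.even_mul_pred_self k).two_dvd]

theorem sum_fin (k : ℕ) (f : ℕ → ℕ) : ∑ i : Fin k, f (k - 1 - i) = ∑ c ∈ range k, f c := by
  rw [Fin.sum_univ_eq_sum_range (fun i => f (k - 1 - i)) k]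
  exact sum_range_reflect f k

theorem exponent (k : ℕ) (lam : Fin k → ℕ) :
    2 * (Nat.choose k 3 + ∑ i : Fin k, ∑ t ∈ range (lam i + (k - 1 - i)), (t + 1)) =
      2 * (∑ i : Fin k, ∑ _j ∈ Ioi i, (lam i + (k - 1 - i))) + ∑ i, lam i * (lam i + 1) := by
  have h1 : ∀ n : ℕ, 2 * ∑ t ∈ range n, (t + 1) = n * (n + 1) := by
    intro n
    induction n with
    | zero => simp
    | succ n ih => rw [sum_range_succ, mul_add, ih]; ring
  rw [mul_add, sum_c, ← sum_fin k (fun c => c * (c - 1)), mul_sum, mul_sum, ← sum_add_distrib,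
    ← sum_add_distrib]
  refine sum_congr rfl fun i _ => ?_
  rw [h1, sum_const, Fin.card_Ioi, smul_eq_mul]
  obtain ⟨c, hc⟩ : ∃ c, c = k - 1 - (i : ℕ) := ⟨_, rfl⟩
  rw [← hc]
  rcases c with _ | c
  · simp
  · simp only [Nat.add_sub_cancel]
    ring

theorem rowSH : RowSH := by
  intro k d e hd lam hlam he
  have hanti : ∀ i j : Fin k, i ≤ j → lam j ≤ lam i := (mem_filter.1 hlam).2
  set l : Fin k → ℕ := fun i => lam i + (k - 1 - i) with hl
  have hlt : ∀ i j : Fin k, i < j → l j < l i := by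
    intro i j hij
    have h1 := hanti i j hij.le
    have h2 : (i : ℕ) < j := hij
    have h3 := j.2
    simp only [hl]
    omega
  -- the exponents
  set A := ∑ i : Fin k, ∑ t ∈ range (l i), (t + 1) with hA
  set B := ∑ i : Fin k, ∑ _j ∈ Ioi i, l i with hB
  have hex : e + d * B = d * (Nat.choose k 3 + A) := by
    have h1 := exponent k lam
    have h2 : 2 * (Nat.choose k 3 + A) = 2 * B + ∑ i, lam i * (lam i + 1) := h1
    have h3 : d * (2 * (Nat.choose k 3 + A)) = d * (2 * B) + 2 * e := by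
      rw [h2, mul_add, ← he]
    nlinarith
  -- the limit of the quotients
  have hlim : Tendsto (fun q : ℕ =>
      (∏ i : Fin k, ∏ t ∈ range (l i),
        ((((q : ℂ) ^ d) ^ (t + 1) - 1) / ((q : ℂ) ^ d) ^ (t + 1))) /
      ∏ i : Fin k, ∏ j ∈ Ioi i, ((((q : ℂ) ^ d) ^ l i - ((q : ℂ) ^ d) ^ l j) / ((q : ℂ) ^ d) ^ l i))
      atTop (𝓝 1) := by
    have key : ∀ n m : ℕ, n < m → Tendsto (fun q : ℕ =>
        (((q : ℂ) ^ d) ^ m - ((q : ℂ) ^ d) ^ n) / ((q : ℂ) ^ d) ^ m) atTop (𝓝 1) := by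
      intro n m hnm
      have h1 := (tendsto_pow_div d n m hd hnm).const_sub 1
      rw [sub_zero] at h1
      refine h1.congr' ?_
      filter_upwards [eventually_ge_atTop 1] with q hq
      have hq0 : (q : ℂ) ≠ 0 := by
        have : q ≠ 0 := by omega
        exact_mod_cast this
      rw [sub_div, div_self (pow_ne_zero _ (pow_ne_zero _ hq0))]
    have hn : Tendsto (fun q : ℕ => ∏ i : Fin k, ∏ t ∈ range (l i),
        ((((q : ℂ) ^ d) ^ (t + 1) - 1) / ((q : ℂ) ^ d) ^ (t + 1))) atTop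
        (𝓝 (∏ i : Fin k, ∏ t ∈ range (l i), (1 : ℂ))) := by
      refine tendsto_finsetProd _ fun i _ => tendsto_finsetProd _ fun t _ => ?_
      have := key 0 (t + 1) (Nat.succ_pos t)
      simpa using this
    have hdn : Tendsto (fun q : ℕ => ∏ i : Fin k, ∏ j ∈ Ioi i,
        ((((q : ℂ) ^ d) ^ l i - ((q : ℂ) ^ d) ^ l j) / ((q : ℂ) ^ d) ^ l i)) atTop
        (𝓝 (∏ i : Fin k, ∏ j ∈ Ioi i, (1 : ℂ))) := by
      refine tendsto_finsetProd _ fun i _ => tendsto_finsetProd _ fun j hj => ?_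
      exact key _ _ (hlt i j (mem_Ioi.1 hj))
    have h1 := hn.div hdn (by simp)
    have h2 : (∏ i : Fin k, ∏ t ∈ range (l i), (1 : ℂ)) / ∏ i : Fin k, ∏ j ∈ Ioi i, (1 : ℂ) = 1 := by
      simp
    rw [h2] at h1
    exact h1
  refine hlim.congr' ?_
  filter_upwards [eventually_ge_atTop 1] with q hq
  have hq0 : (q : ℂ) ≠ 0 := by
    have : q ≠ 0 := by omega
    exact_mod_cast this
  have hQ0 : (q : ℂ) ^ d ≠ 0 := pow_ne_zero _ hq0
  have e1 : ∏ i : Fin k, ∏ t ∈ range (l i), (((q : ℂ) ^ d) ^ (t + 1)) = ((q : ℂ) ^ d) ^ A := by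
    rw [hA, ← prod_pow_eq_pow_sum]
    exact prod_congr rfl fun i _ => prod_pow_eq_pow_sum _ _ _
  have e2 : ∏ i : Fin k, ∏ _j ∈ Ioi i, (((q : ℂ) ^ d) ^ l i) = ((q : ℂ) ^ d) ^ B := by
    rw [hB, ← prod_pow_eq_pow_sum]
    exact prod_congr rfl fun i _ => prod_pow_eq_pow_sum _ _ _
  simp only [prod_div_distrib]
  rw [e1, e2]
  have e3 : (q : ℂ) ^ e * ((q : ℂ) ^ d) ^ B = ((q : ℂ) ^ d) ^ (Nat.choose k 3) *
      ((q : ℂ) ^ d) ^ A := by
    rw [← pow_add, ← pow_mul, ← pow_mul, ← pow_add, hex]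
  change _ = ((q : ℂ) ^ d) ^ (Nat.choose k 3) *
    (∏ i : Fin k, ∏ t ∈ range (l i), (((q : ℂ) ^ d) ^ (t + 1) - 1)) /
    (∏ i : Fin k, ∏ j ∈ Ioi i, (((q : ℂ) ^ d) ^ l i - ((q : ℂ) ^ d) ^ l j)) / (q : ℂ) ^ e
  generalize (∏ i : Fin k, ∏ t ∈ range (l i), (((q : ℂ) ^ d) ^ (t + 1) - 1)) = X
  generalize (∏ i : Fin k, ∏ j ∈ Ioi i, (((q : ℂ) ^ d) ^ l i - ((q : ℂ) ^ d) ^ l j)) = Y
  have hA0 : ((q : ℂ) ^ d) ^ A ≠ 0 := pow_ne_zero _ hQ0
  have hB0 : ((q : ℂ) ^ d) ^ B ≠ 0 := pow_ne_zero _ hQ0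
  have he0 : (q : ℂ) ^ e ≠ 0 := pow_ne_zero _ hq0
  rw [div_div_div_eq, div_div]
  by_cases hY : Y = 0
  · simp [hY]
  rw [div_eq_div_iff (mul_ne_zero hA0 hY) (mul_ne_zero hY he0)]
  linear_combination (X * Y) * e3

end Vale.Agent.P275.H950
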